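import Vale.Agent.P307.R2.H83.Scaf
import Vale.Agent.P307.R2.H732.TmL

/-!
Transfer of the shifts into closed sets along a map between two families which preserves the types
of the pieces of a fixed size.
-/

universe u v

open Set Cardinal Function

namespace Vale.Agent.P307.R2.H83

open Vale.Agent.P307.R2.H541 Vale.Agent.P307.R2.H541.PG Vale.Agent.P307.R2.H533
  Vale.Agent.P307.R2.H578
open Vale.Agent.P307.R2.H68 (Clo exists_clo)

open scoped Classical

variable {ι : Type v} {C : Type u} {M : PG C} {F : Finset (Finset ι)}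
  {P T : Finset ι → Set C} {X R : Set C} {f : C → C} {B τ d ρ ν : Cardinal.{u}}

/-- The pieces of size at most `d` of the family move into the closed traces over the pieces of
`Y`. -/
def ShiftY (M : PG C) (τ d : Cardinal.{u}) (St : Finset ι → Set C) (F : Finset (Finset ι))
    (Y : Set C) : Prop :=
  ∃ φ : Finset C → Set C, (∀ s, #(φ s) ≤ τ) ∧ ∀ H, Clo φ H → #H ≤ τ →
    ∀ E ⊆ iun St F, #E ≤ d → ∀ q ⊆ Y ∩ H, #q ≤ d →
      ∃ g ∈ M.G, (∀ x ∈ q, g x = x) ∧ ∀ v ∈ F, ∀ e ∈ E, e ∈ St v → g e ∈ St v ∩ H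

theorem lel_inj (h : M.LEL B f X) (hB : ℵ₀ ≤ B) : InjOn f X := by
  intro a ha b hb hab
  obtain ⟨g, -, hg⟩ := h {a, b} (by
    rintro x (rfl | rfl)
    · exact ha
    · exact hb) (((finite_singleton b).insert a).lt_aleph0.le.trans hB)
  have h1 := hg a (Or.inl rfl)
  have h2 := hg b (Or.inr rfl)
  exact g.injective (by rw [h1, h2, hab])

/-- A map which preserves the types of the pieces of a sufficiently large fixed size extends to an
additional small set. -/
theorem exists_ext (hR : M.Real) (hν : ν < M.χ) : ∃ B < M.χ, ∀ (X R : Set C) (f : C → C),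
    #X ≤ M.χ → #R ≤ ν → M.LEL B f X → ∃ e : C → C, ∀ A ⊆ X, #A ≤ ν →
      ∃ g ∈ M.G, (∀ a ∈ A, g a = f a) ∧ ∀ x ∈ R, g x = e x := by
  obtain ⟨ν₁, h1, B, h2, h3, h4, h5⟩ := hR ν hν
  refine ⟨B, h2, fun X R f hX hRc hf => h5 X R f hX hRc ?_⟩
  intro A hA hAB
  obtain ⟨g, hg, hgf⟩ := hf A hA hAB
  exact ⟨g, fun A' hA' _ => ⟨g, hg, fun a ha => hgf a (hA' ha), fun _ _ => rfl⟩⟩

/-- **Transfer of the shifts into closed sets.** -/
theorem shiftY_of_lel (hR : M.Real) (hτ : ℵ₀ ≤ τ) (hd : d < M.χ) (hρ : ρ < M.χ) :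
    ∃ B < M.χ, ∀ (P T : Finset ι → Set C) (F : Finset (Finset ι)) (f : C → C) (R : Set C),
      #(iun P F) ≤ M.χ → M.LEL B f (iun P F) → (∀ v ∈ F, f '' P v = T v) → #R ≤ ρ →
      ShiftD M τ d T F → ShiftY M τ d P F (iun P F ∪ R) := by
  obtain ⟨B, hB, hext⟩ := exists_ext hR (ν := max (d + d) ρ)
    (max_lt (add_lt_of_lt M.hχ hd hd) hρ)
  obtain ⟨B', hB', hB1, hB2⟩ : ∃ B' < M.χ, B ≤ B' ∧ (ℵ₀ ≤ M.χ → 2 ≤ B') := by
    refine ⟨max B 2, max_lt hB ?_, le_max_left _ _, fun _ => le_max_right _ _⟩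
    exact lt_of_lt_of_le (by exact_mod_cast natCast_lt_aleph0 (n := 2)) M.hχ
  refine ⟨B', hB', fun P T F f R hX hf hPT hRc hsh => ?_⟩
  have hinj : InjOn f (iun P F) := by
    intro a ha b hb hab
    obtain ⟨g, -, hg⟩ := hf {a, b} (by
      rintro x (rfl | rfl)
      · exact ha
      · exact hb) (by
        refine (mk_insert_le.trans ?_).trans (hB2 M.hχ)
        rw [mk_singleton, one_add_one_eq_two])
    have h1 := hg a (Or.inl rfl)
    have h2 := hg b (Or.inr rfl)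
    exact g.injective (by rw [h1, h2, hab])
  obtain ⟨e, he⟩ := hext (iun P F) R f hX (hRc.trans (le_max_right _ _))
    fun A hA hAB => hf A hA (hAB.trans hB1)
  obtain ⟨φ, hφc, hφ⟩ := hsh
  -- the map on both parts
  let f' : C → C := fun x => if x ∈ iun P F then f x else e x
  have hf'X : ∀ x ∈ iun P F, f' x = f x := fun x hx => if_pos hx
  have hf'R : ∀ x ∈ R, f' x = e x := by
    intro x hx
    by_cases hxX : x ∈ iun P F
    · rw [hf'X x hxX]
      obtain ⟨g, -, h1, h2⟩ := he {x} (singleton_subset_iff.2 hxX) (by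
        rw [mk_singleton]
        by_cases hd0 : d = 0
        · by_cases hρ0 : ρ = 0
          · rw [hρ0] at hRc
            have : R = ∅ := by
              rw [← mk_set_eq_zero_iff]
              exact le_antisymm hRc zero_le
            rw [this] at hx
            exact absurd hx (notMem_empty x)
          · exact (Cardinal.one_le_iff_ne_zero.2 hρ0).trans (le_max_right _ _)
        · exact ((Cardinal.one_le_iff_ne_zero.2 hd0).trans (self_le_add_right d d)).trans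
            (le_max_left _ _))
      rw [← h1 x rfl, h2 x hx]
    · exact if_neg hxX
  let ψ : Finset C → Set C := fun s => φ s ∪ (f' '' s ∪ {x | x ∈ iun P F ∧ f x ∈ s})
  have hψc : ∀ s, #(ψ s) ≤ τ := by
    intro s
    refine (mk_union_le _ _).trans (add_le_of_le hτ (hφc s) ?_)
    refine (mk_union_le _ _).trans (add_le_of_le hτ ?_ ?_)
    · exact ((s.finite_toSet.image f').lt_aleph0.le).trans hτ
    · have h1 : {x | x ∈ iun P F ∧ f x ∈ s}.Finite := by
        refine Set.Finite.of_finite_image (f := f) (s.finite_toSet.subset ?_) ?_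
        · rintro _ ⟨x, hx, rfl⟩
          exact hx.2
        · exact hinj.mono fun x hx => hx.1
      exact h1.lt_aleph0.le.trans hτ
  refine ⟨ψ, hψc, fun H hH hHc E hE hEc q hq hqc => ?_⟩
  have hHφ : Clo φ H := hH.mono fun s => subset_union_left
  have hHf : ∀ x ∈ H, f' x ∈ H := by
    intro x hx
    exact hH {x} (by simpa using hx) (Or.inr (Or.inl ⟨x, by simp, rfl⟩))
  have hHi : ∀ x ∈ iun P F, f x ∈ H → x ∈ H := by
    intro x hx hfx
    exact hH {f x} (by simpa using hfx) (Or.inr (Or.inr ⟨hx, by simp⟩))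
  have hTE : f '' E ⊆ iun T F := by
    rintro _ ⟨x, hx, rfl⟩
    obtain ⟨v, hv, hxv⟩ := hE hx
    refine ⟨v, hv, ?_⟩
    rw [← hPT v hv]
    exact mem_image_of_mem f hxv
  obtain ⟨g, hg, hgq, hgE⟩ := hφ H hHφ hHc (f '' E) hTE (mk_image_le.trans hEc) (f' '' q) (by
    rintro _ ⟨x, hx, rfl⟩
    exact hHf x (hq hx).2) (mk_image_le.trans hqc)
  -- the new piece
  have hpre : ∀ x ∈ E, ∃ y, y ∈ iun P F ∧ f y = g (f x) ∧ y ∈ H ∧ ∀ v ∈ F, x ∈ P v → y ∈ P v := by
    intro x hx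
    obtain ⟨v₀, hv₀, hxv₀⟩ := hE hx
    have h1 : ∀ v ∈ F, x ∈ P v → ∃ y ∈ P v, f y = g (f x) := by
      intro v hv hxv
      have h2 := (hgE v hv (f x) (mem_image_of_mem f hx) (by
        rw [← hPT v hv]
        exact mem_image_of_mem f hxv)).1
      rw [← hPT v hv] at h2
      exact h2
    obtain ⟨y, hy, hfy⟩ := h1 v₀ hv₀ hxv₀
    have hyX : y ∈ iun P F := ⟨v₀, hv₀, hy⟩
    refine ⟨y, hyX, hfy, hHi y hyX ?_, fun v hv hxv => ?_⟩
    · rw [hfy]
      refine (hgE v₀ hv₀ (f x) (mem_image_of_mem f hx) ?_).2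
      rw [← hPT v₀ hv₀]
      exact mem_image_of_mem f hxv₀
    · obtain ⟨y', hy', hfy'⟩ := h1 v hv hxv
      have : y = y' := hinj hyX ⟨v, hv, hy'⟩ (by rw [hfy, hfy'])
      rw [this]
      exact hy'
  choose! y hyX hfy hyH hyv using hpre
  have hsz : ∀ E' : Set C, #E' ≤ d → #(E' ∪ (q ∩ iun P F) : Set C) ≤ max (d + d) ρ := by
    intro E' hE'
    refine ((mk_union_le _ _).trans ?_).trans (le_max_left _ _)
    exact add_le_add hE' ((mk_le_mk_of_subset inter_subset_left).trans hqc)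
  obtain ⟨g₁, hg₁, h1, h2⟩ := he (E ∪ (q ∩ iun P F)) (union_subset hE inter_subset_right)
    (hsz E hEc)
  obtain ⟨g₂, hg₂, h3, h4⟩ := he (y '' E ∪ (q ∩ iun P F)) (union_subset (by
    rintro _ ⟨x, hx, rfl⟩
    exact hyX x hx) inter_subset_right) (hsz _ (mk_image_le.trans hEc))
  refine ⟨g₂⁻¹ * g * g₁, M.G.mul_mem (M.G.mul_mem (M.G.inv_mem hg₂) hg) hg₁, fun x hx => ?_,
    fun v hv x hx hxv => ?_⟩
  · have h5 : g (f' x) = f' x := hgq _ (mem_image_of_mem f' hx)
    rw [Equiv.Perm.mul_apply, Equiv.Perm.mul_apply, Equiv.Perm.inv_eq_iff_eq]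
    by_cases hxX : x ∈ iun P F
    · rw [hf'X x hxX] at h5
      rw [h1 x (Or.inr ⟨hx, hxX⟩), h3 x (Or.inr ⟨hx, hxX⟩), h5]
    · have hxR : x ∈ R := ((hq hx).1).resolve_left hxX
      rw [hf'R x hxR] at h5
      rw [h2 x hxR, h4 x hxR, h5]
  · have h5 : (g₂⁻¹ * g * g₁ : Equiv.Perm C) x = y x := by
      rw [Equiv.Perm.mul_apply, Equiv.Perm.mul_apply, Equiv.Perm.inv_eq_iff_eq,
        h1 x (Or.inl hx), h3 (y x) (Or.inl (mem_image_of_mem y hx)), hfy x hx]
    rw [h5]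
    exact ⟨hyv x hx v hv hxv, hyH x hx⟩

end Vale.Agent.P307.R2.H83
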