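import Vale.Agent.P307.R2.H83.Scaf
import Vale.Agent.P307.R2.H732.TmL

/-!
Coherent isomorphisms from an independent family onto a family which reflects only for the pieces
of a fixed size preserve the types of the pieces of a fixed size.
-/

universe u v

open Set Cardinal Function

namespace Vale.Agent.P307.R2.H83

open Vale.Agent.P307.R2.H541 Vale.Agent.P307.R2.H541.PG Vale.Agent.P307.R2.H533

open scoped Classical

variable {ι : Type v} {C : Type u} {M : PG C}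

variable (M) in
/-- Reflection for the pieces of size at most `τ` of a family of faces. -/
def IRefL (τ : Cardinal.{u}) (A : Finset ι → Set C) (F : Finset (Finset ι)) : Prop :=
  ∀ x, ∀ E ⊆ iun A F, #E ≤ τ →
    ∃ g ∈ M.G, ∀ v ∈ F, ∀ e ∈ E, e ∈ A v → g e ∈ A (v.erase x) ∧ (x ∉ v → g e = e)

variable {A A' : Finset ι → Set C} {F F' : Finset (Finset ι)} {s : Finset ι}
  {τ τ' lam : Cardinal.{u}}

theorem _root_.Vale.Agent.P307.R2.H533.IRef.irefL (h : IRef M A F) (hτ : τ < M.χ) :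
    IRefL M τ A F := fun x E hE hEc => h x E hE (hEc.trans_lt hτ)

namespace IRefL

theorem level (h : IRefL M τ A F) (hτ : τ' ≤ τ) : IRefL M τ' A F :=
  fun x E hE hEc => h x E hE (hEc.trans hτ)

theorem mono (h : IRefL M τ A F) (hF : F' ⊆ F) : IRefL M τ A F' := by
  intro x E hE hEc
  obtain ⟨g, hg, h1⟩ := h x E (hE.trans (iun_mono hF)) hEc
  exact ⟨g, hg, fun v hv => h1 v (hF hv)⟩

/-- Reflection in several directions. -/
theorem many (hF : Down F) (h : IRefL M τ A F) (T : Finset ι) :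
    ∀ E ⊆ iun A F, #E ≤ τ → ∃ g ∈ M.G, ∀ v ∈ F, ∀ e ∈ E, e ∈ A v →
      g e ∈ A (v \ T) ∧ (Disjoint v T → g e = e) := by
  induction T using Finset.induction_on with
  | empty =>
    intro E hE hEc
    exact ⟨1, M.G.one_mem, fun v hv e he hev => ⟨by rwa [Finset.sdiff_empty], fun _ => rfl⟩⟩
  | insert y T hy ih =>
    intro E hE hEc
    obtain ⟨g, hg, h1⟩ := ih E hE hEc
    obtain ⟨k, hk, h2⟩ := h y (g '' E) (by
      rintro _ ⟨e, he, rfl⟩
      obtain ⟨v, hv, hev⟩ := hE he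
      exact ⟨v \ T, hF.2 v hv _ Finset.sdiff_subset, (h1 v hv e he hev).1⟩)
      (mk_image_le.trans hEc)
    refine ⟨k * g, M.G.mul_mem hk hg, fun v hv e he hev => ?_⟩
    have h3 := h1 v hv e he hev
    have h4 := h2 (v \ T) (hF.2 v hv _ Finset.sdiff_subset) (g e) (mem_image_of_mem g he) h3.1
    constructor
    · have h5 : (v \ T).erase y = v \ insert y T := by
        ext z
        simp only [Finset.mem_erase, Finset.mem_sdiff, Finset.mem_insert, not_or]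
        tauto
      rw [← h5]
      exact h4.1
    · intro hd
      rw [Finset.disjoint_insert_right] at hd
      rw [Equiv.Perm.mul_apply, h4.2 fun h6 => hd.1 (Finset.mem_sdiff.1 h6).1, h3.2 hd.2]

/-- Reflection towards a set of directions. -/
theorem toward (hF : Down F) (h : IRefL M τ A F) (w : Finset ι) {E : Set C} (hE : E ⊆ iun A F)
    (hEc : #E ≤ τ) : ∃ g ∈ M.G, ∀ v ∈ F, ∀ e ∈ E, e ∈ A v →
      g e ∈ A (v ∩ w) ∧ (v ⊆ w → g e = e) := by
  obtain ⟨g, hg, h1⟩ := h.many hF (F.biUnion id \ w) E hE hEc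
  refine ⟨g, hg, fun v hv e he hev => ?_⟩
  have h2 := h1 v hv e he hev
  have h3 : v \ (F.biUnion id \ w) = v ∩ w := by
    ext z
    rw [Finset.mem_sdiff, Finset.mem_sdiff, Finset.mem_inter, not_and, not_not]
    constructor
    · rintro ⟨h4, h5⟩
      exact ⟨h4, h5 (Finset.mem_biUnion.2 ⟨v, hv, h4⟩)⟩
    · rintro ⟨h4, h5⟩
      exact ⟨h4, fun _ => h5⟩
  rw [h3] at h2
  refine ⟨h2.1, fun h4 => h2.2 ?_⟩
  exact Finset.disjoint_left.2 fun z hz hz' => (Finset.mem_sdiff.1 hz').2 (h4 hz)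

/-- A face is independent from the other faces over every set between its boundary and the face,
for the pieces of half the size. -/
theorem indL_hull (hA : IFam M A F) (hR : IRefL M (τ + τ) A F) {w : Finset ι} (hw : w ∈ F)
    (hF' : Down F') (hsub : F' ⊆ F) (hwF' : w ∉ F') {N : Set C} (hN : ibd A w ⊆ N)
    (hNw : N ⊆ A w) : M.IndL τ N (A w) (iun A F') := by
  intro D hD hDc E hE hEc
  have hDw : D ⊆ A w := fun x hx => (hD hx).elim (fun h => hNw h) id
  obtain ⟨g, hg, h1⟩ := hR.toward hA.down w (E := D ∪ E) (union_subset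
    (fun x hx => ⟨w, hw, hDw hx⟩) (hE.trans (iun_mono hsub)))
    ((mk_union_le _ _).trans (add_le_add hDc hEc))
  refine ⟨g, hg, fun a ha => (h1 w hw a (Or.inl ha) (hDw ha)).2 (Finset.Subset.refl w),
    fun b hb => ?_⟩
  obtain ⟨v, hv, hbv⟩ := hE hb
  refine hN ⟨v ∩ w, ?_, (h1 v (hsub hv) b (Or.inr hb) hbv).1⟩
  refine lt_of_le_of_ne Finset.inter_subset_right fun h2 => hwF' (hF'.2 v hv w ?_)
  rw [← h2]
  exact Finset.inter_subset_left

end IRefL

/-- The image of the boundary of a face. -/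
theorem image_ibd (hA : IFam M A F) {w : Finset ι} (hw : w ∈ F) {f : C → C}
    (hf : ∀ v ∈ F, ∃ g ∈ M.G, (∀ a ∈ A v, g a = f a) ∧ g '' A v = A' v)
    {gw : Equiv.Perm C} (hgw : ∀ a ∈ A w, gw a = f a) : gw '' ibd A w = ibd A' w := by
  ext x
  constructor
  · rintro ⟨a, ⟨r, hr, ha⟩, rfl⟩
    obtain ⟨g, -, h1, h2⟩ := hf r (hA.down.2 w hw r hr.1)
    refine ⟨r, hr, ?_⟩
    rw [hgw a (hA.mono w hw r hr.1 ha), ← h1 a ha, ← h2]
    exact mem_image_of_mem g ha
  · rintro ⟨r, hr, hx⟩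
    obtain ⟨g, -, h1, h2⟩ := hf r (hA.down.2 w hw r hr.1)
    rw [← h2] at hx
    obtain ⟨a, ha, rfl⟩ := hx
    refine ⟨a, ⟨r, hr, ha⟩, ?_⟩
    rw [hgw a (hA.mono w hw r hr.1 ha), h1 a ha]

/-- **Coherent isomorphisms onto a family which reflects at one level.** -/
theorem exists_lel (hM : M.Calc) (hB : M.Big) (hU : M.Up) {H : Cardinal.{u} → Cardinal.{u}}
    (hH : ∀ σ < M.χ, H σ < M.χ) (F : Finset (Finset ι)) (hF : Down F)
    (hG : ∀ v ∈ F, 2 ≤ v.card → GDI M ι v.card) : ∀ lam < M.χ, ∃ τ < M.χ,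
      ∀ (A A' : Finset ι → Set C) (f : C → C), IFam M A F → IRef M A F → IFam M A' F →
        IRefL M τ A' F →
        (∀ w ∈ F, w.Nonempty → ∀ σ < M.χ, ∀ ρ < M.χ, M.TmL σ (H σ) ρ (ibd A w)) →
        (∀ v ∈ F, ∃ g ∈ M.G, (∀ a ∈ A v, g a = f a) ∧ g '' A v = A' v) →
          M.LEL lam f (iun A F) := by
  have key : ∀ F', Down F' → F' ⊆ F → ∀ lam < M.χ, ∃ τ < M.χ,
      ∀ (A A' : Finset ι → Set C) (f : C → C), IFam M A F → IRef M A F → IFam M A' F →
        IRefL M τ A' F →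
        (∀ w ∈ F, w.Nonempty → ∀ σ < M.χ, ∀ ρ < M.χ, M.TmL σ (H σ) ρ (ibd A w)) →
        (∀ v ∈ F, ∃ g ∈ M.G, (∀ a ∈ A v, g a = f a) ∧ g '' A v = A' v) →
          M.LEL lam f (iun A F') := by
    refine down_induction (p := fun F' => F' ⊆ F → ∀ lam < M.χ, ∃ τ < M.χ,
      ∀ (A A' : Finset ι → Set C) (f : C → C), IFam M A F → IRef M A F → IFam M A' F →
        IRefL M τ A' F →
        (∀ w ∈ F, w.Nonempty → ∀ σ < M.χ, ∀ ρ < M.χ, M.TmL σ (H σ) ρ (ibd A w)) →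
        (∀ v ∈ F, ∃ g ∈ M.G, (∀ a ∈ A v, g a = f a) ∧ g '' A v = A' v) →
          M.LEL lam f (iun A F')) ?_ ?_
    · intro hsub lam hlam
      refine ⟨lam, hlam, fun A A' f _ _ _ _ _ hf E hE _ => ?_⟩
      obtain ⟨g, hg, h1, -⟩ := hf ∅ (hsub (Finset.mem_singleton_self ∅))
      refine ⟨g, hg, fun a ha => ?_⟩
      obtain ⟨v, hv, hav⟩ := hE ha
      rw [Finset.mem_singleton] at hv
      subst hv
      exact h1 a hav
    intro F' w hF' hwF hw ih hsub' lam hlam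
    have hsub : F' ⊆ F := (Finset.subset_insert w F').trans hsub'
    have hwF' : w ∈ F := hsub' (Finset.mem_insert_self w F')
    have hw0 : w.Nonempty := by
      rw [Finset.nonempty_iff_ne_empty]
      rintro rfl
      exact hwF hF'.1
    obtain ⟨τ₂, hτ₂, h2⟩ := ih hsub (lam + H lam) (add_lt_of_lt M.hχ hlam (hH lam hlam))
    obtain ⟨τ₃, hτ₃, h3⟩ := hU lam hlam
    refine ⟨max τ₂ (τ₃ + τ₃), max_lt hτ₂ (add_lt_of_lt M.hχ hτ₃ hτ₃),
      fun A A' f hA hR hA' hR' hT hf => ?_⟩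
    have hLE : M.LEL (lam + H lam) f (iun A F') :=
      h2 A A' f hA hR hA' (hR'.level (le_max_left _ _)) hT hf
    obtain ⟨N, hN, hNw⟩ := exists_hull hA hR hwF' hw0 (hG w hwF')
    obtain ⟨gw, hgw, hw1, hw2⟩ := hf w hwF'
    have hRF : IRef M A F' := hR.mono hsub
    have hbw : ibd A w ⊆ A w := fun x hx => hNw (hN.sub hx)
    intro E₀ hE₀ hE₀c
    have hac : #(E₀ ∩ iun A F' : Set C) ≤ lam := (mk_le_mk_of_subset inter_subset_left).trans hE₀c
    have hec : #(E₀ ∩ A w : Set C) ≤ lam := (mk_le_mk_of_subset inter_subset_left).trans hE₀c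
    obtain ⟨g0, hg0, hg0f⟩ := hLE (E₀ ∩ iun A F') inter_subset_right
      (hac.trans (self_le_add_right _ _))
    have ht : gw⁻¹ * g0 ∈ M.G := M.G.mul_mem (M.G.inv_mem hgw) hg0
    -- the type over the boundary
    have hbd : ∀ A₁ ⊆ ibd A w, #A₁ < M.χ → ∃ h ∈ M.G, (∀ x ∈ A₁, h x = x) ∧
        ∀ x ∈ E₀ ∩ iun A F', h x = (gw⁻¹ * g0) x := by
      intro A₁ hA₁ hA₁c
      refine hT w hwF' hw0 lam hlam #A₁ hA₁c (E₀ ∩ iun A F') hac _ ht ?_ A₁ hA₁ le_rfl
      intro z hz hzc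
      obtain ⟨g, hg, hgf⟩ := hLE ((E₀ ∩ iun A F') ∪ z) (union_subset inter_subset_right
        (hz.trans (ibd_sub_iun hw))) ((mk_union_le _ _).trans (add_le_add hac hzc))
      refine ⟨gw⁻¹ * g, M.G.mul_mem (M.G.inv_mem hgw) hg, fun x hx => ?_, fun x hx => ?_⟩
      · rw [Equiv.Perm.mul_apply, hgf x (Or.inr hx), ← hw1 x (hbw (hz hx)), inv_ap]
      · rw [Equiv.Perm.mul_apply, Equiv.Perm.mul_apply, hgf x (Or.inl hx), hg0f x hx]
    -- the type over the hull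
    have hhull : ∀ D ⊆ N, #D < M.χ → ∃ h ∈ M.G, (∀ x ∈ D, h x = x) ∧
        ∀ x ∈ E₀ ∩ iun A F', h x = (gw⁻¹ * g0) x := by
      intro D hD hDc
      obtain ⟨b, hb, hbc, hiso'⟩ := hN.iso D hD hDc
      have hiso := hiso'.lift (hRF.tv hF' hwF hw) hb hbc
      obtain ⟨h, hh, h4, h5⟩ := hbd b hb hbc
      obtain ⟨h', hh', h6, h7⟩ := hiso h⁻¹ (M.G.inv_mem hh) (fun x hx => fix_inv (h4 x hx))
        (E₀ ∩ iun A F') inter_subset_right (hac.trans_lt hlam)
      refine ⟨h * h', M.G.mul_mem hh hh', fun x hx => ?_, fun x hx => ?_⟩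
      · rw [Equiv.Perm.mul_apply, h7 x hx, ap_inv]
      · rw [Equiv.Perm.mul_apply, h6 x hx, h5 x hx]
    obtain ⟨g1, hg1, h4, h5⟩ := hB.conj hN.mem (hac.trans_lt hlam) (gw⁻¹ * g0 : Equiv.Perm C)
      hhull
    -- independence on both sides
    have hind : M.Ind N (E₀ ∩ A w) (E₀ ∩ iun A F') :=
      (ind_hull hA hR hwF' hF' hsub hwF hN.sub hNw).mono inter_subset_right inter_subset_right
    have himg : gw '' ibd A w = ibd A' w := image_ibd hA hwF' hf hw1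
    have hcomp : ((gw⁻¹ : Equiv.Perm C) ∘ gw) = id := by
      funext a
      exact inv_ap gw a
    have hind' : M.Ind (gw '' N) (gw '' (E₀ ∩ A w)) (g0 '' (E₀ ∩ iun A F')) := by
      refine h3 _ (M.S_inv hgw hN.mem) _ _ (mk_image_le.trans hec) (mk_image_le.trans hac) ?_
      refine (IRefL.indL_hull hA' (hR'.level (le_max_right _ _)) hwF' hF' hsub hwF
        (N := gw '' N) ?_ ?_).mono ?_ ?_
      · rw [← himg]
        exact image_mono hN.sub
      · rw [← hw2]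
        exact image_mono hNw
      · rw [← hw2]
        exact image_mono inter_subset_right
      · rintro _ ⟨c, hc, rfl⟩
        obtain ⟨v, hv, hcv⟩ := hc.2
        obtain ⟨gv, hgv, hv1, hv2⟩ := hf v (hsub hv)
        refine ⟨v, hv, ?_⟩
        rw [hg0f c hc, ← hv1 c hcv, ← hv2]
        exact mem_image_of_mem gv hcv
    have hind2 := hind'.smul (M.G.inv_mem hgw)
    rw [← image_comp, hcomp, image_id, ← image_comp, hcomp, image_id] at hind2
    obtain ⟨p, hpN, -, hp⟩ := hM.based hN.mem (E := E₀ ∩ A w) (hec.trans_lt hlam)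
    obtain ⟨h, hh, -, h6, h7⟩ := hp g1 hg1 (fun x hx => h4 x (hpN hx)) (E₀ ∩ iun A F')
      (hac.trans_lt hlam) hind (hind2.mono Subset.rfl (by
        rintro _ ⟨x, hx, rfl⟩
        rw [h5 x hx]
        exact ⟨g0 x, mem_image_of_mem g0 hx, rfl⟩))
    refine ⟨gw * h, M.G.mul_mem hgw hh, fun x hx => ?_⟩
    have h8 := hE₀ hx
    rw [iun_insert] at h8
    rcases h8 with h8 | h8
    · rw [Equiv.Perm.mul_apply, h6 x ⟨hx, h8⟩, hw1 x h8]
    · rw [Equiv.Perm.mul_apply, h7 x ⟨hx, h8⟩, h5 x ⟨hx, h8⟩, Equiv.Perm.mul_apply, ap_inv,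
        hg0f x ⟨hx, h8⟩]
  exact key F hF Finset.Subset.rfl

/-- The form for coherent isomorphisms. -/
theorem exists_lel_coh (hM : M.Calc) (hB : M.Big) (hU : M.Up) {H : Cardinal.{u} → Cardinal.{u}}
    (hH : ∀ σ < M.χ, H σ < M.χ) (F : Finset (Finset ι)) (hF : Down F)
    (hG : ∀ v ∈ F, 2 ≤ v.card → GDI M ι v.card) : ∀ lam < M.χ, ∃ τ < M.χ,
      ∀ (A A' : Finset ι → Set C) (φ : Finset ι → Equiv.Perm C), IFam M A F → IRef M A F →
        IFam M A' F → IRefL M τ A' F →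
        (∀ w ∈ F, w.Nonempty → ∀ σ < M.χ, ∀ ρ < M.χ, M.TmL σ (H σ) ρ (ibd A w)) →
        Coh M F A A' φ → M.LEL lam (umap F A φ) (iun A F) := by
  intro lam hlam
  obtain ⟨τ, hτ, h⟩ := exists_lel hM hB hU hH F hF hG lam hlam
  refine ⟨τ, hτ, fun A A' φ hA hR hA' hR' hT hφ => h A A' _ hA hR hA' hR' hT fun v hv => ?_⟩
  exact ⟨φ v, hφ.mem v hv, fun _ ha => hφ.umap_eq hA hR hv ha, hφ.img v hv⟩

end Vale.Agent.P307.R2.H83
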