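import Vale.Agent.P307.R2.H533.GDI
import Vale.Agent.P307.R2.H650.Defs
import Vale.Agent.P307.R2.H578.JR1

/-!
Scaffolds: an arbitrary independent family is enlarged, face by face, freely from a given set, to
an independent family which is coherently isomorphic with a standard family.
-/

universe u v w

open Set Cardinal Function

namespace Vale.Agent.P307.R2.H83

open Vale.Agent.P307.R2.H541 Vale.Agent.P307.R2.H541.PG Vale.Agent.P307.R2.H533
  Vale.Agent.P307.R2.H650 Vale.Agent.P307.R2.H578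

open scoped Classical

variable {ι : Type v} {C : Type u} {M : PG C} {β : Type w}

variable (M) in
/-- A generator of standard families: `St b v` depends on the bounds `b w` for the nonempty
`w ⊆ v`, and by enlarging the last bound it contains a copy of an arbitrary model. -/
structure StdGen (F : Finset (Finset ι)) (St : (Finset ι → β) → Finset ι → Set C) : Prop where
  mem : ∀ b, ∀ v ∈ F, St b v ∈ M.S
  mono : ∀ b, ∀ v ∈ F, ∀ w ⊆ v, St b w ⊆ St b v
  loc : ∀ b b' : Finset ι → β, ∀ v ∈ F, (∀ w ⊆ v, w.Nonempty → b w = b' w) → St b v = St b' v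
  conj : ∀ P ∈ M.S, ∃ b, ∃ g ∈ M.G, g '' P = St b ∅
  gap : ∀ b, ∀ v ∈ F, v.Nonempty → ∀ D ∈ M.S, ∀ Z ⊆ D, Z ⊆ ibd (St b) v →
    ∃ c, ∃ g ∈ M.G, (∀ z ∈ Z, g z = z) ∧ g '' D ⊆ St (update b v c) v
  ref : ∀ b, ∀ v ∈ F, v.Nonempty → IRef M (St b) v.ssubsets

/-- Coherent isomorphisms between the faces of two families. -/
structure Coh (M : PG C) (F : Finset (Finset ι)) (B T : Finset ι → Set C)
    (φ : Finset ι → Equiv.Perm C) : Prop where
  mem : ∀ v ∈ F, φ v ∈ M.G
  img : ∀ v ∈ F, φ v '' B v = T v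
  coh : ∀ v ∈ F, ∀ w ⊆ v, ∀ a ∈ B w, φ v a = φ w a

variable {F F' : Finset (Finset ι)} {A B P T : Finset ι → Set C} {φ : Finset ι → Equiv.Perm C}
  {s : Finset ι} {Q : Set C}

/-- The union of the maps. -/
noncomputable def umap (F : Finset (Finset ι)) (B : Finset ι → Set C)
    (φ : Finset ι → Equiv.Perm C) (x : C) : C :=
  if h : ∃ v ∈ F, x ∈ B v then φ h.choose x else x

namespace Coh

theorem sub (h : Coh M F B T φ) (hsub : F' ⊆ F) : Coh M F' B T φ :=
  ⟨fun v hv => h.mem v (hsub hv), fun v hv => h.img v (hsub hv),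
    fun v hv => h.coh v (hsub hv)⟩

theorem umap_eq (h : Coh M F B T φ) (hA : IFam M B F) (hR : IRef M B F) {v : Finset ι}
    (hv : v ∈ F) {a : C} (ha : a ∈ B v) : φ v a = umap F B φ a := by
  have hex : ∃ v ∈ F, a ∈ B v := ⟨v, hv, ha⟩
  obtain ⟨h1, h2⟩ := hex.choose_spec
  rw [umap, dif_pos hex]
  have h3 : a ∈ B (v ∩ hex.choose) := by
    rw [← hR.inter hA.down hA hv h1]
    exact ⟨ha, h2⟩
  rw [h.coh v hv _ Finset.inter_subset_left a h3,
    h.coh _ h1 _ Finset.inter_subset_right a h3]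

theorem umap_img (h : Coh M F B T φ) (hA : IFam M B F) (hR : IRef M B F) :
    umap F B φ '' iun B F = iun T F := by
  ext x
  constructor
  · rintro ⟨a, ⟨v, hv, ha⟩, rfl⟩
    refine ⟨v, hv, ?_⟩
    rw [← h.umap_eq hA hR hv ha, ← h.img v hv]
    exact mem_image_of_mem _ ha
  · rintro ⟨v, hv, hx⟩
    rw [← h.img v hv] at hx
    obtain ⟨a, ha, rfl⟩ := hx
    exact ⟨a, ⟨v, hv, ha⟩, (h.umap_eq hA hR hv ha).symm⟩

/-- The union of coherent isomorphisms of independent families is locally elementary. -/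
theorem le (hM : M.Calc) (h : Coh M F B T φ) (hA : IFam M B F) (hR : IRef M B F)
    (hA' : IFam M T F) (hR' : IRef M T F) (hG : ∀ v ∈ F, 2 ≤ v.card → GDI M ι v.card) :
    M.LE (umap F B φ) (iun B F) :=
  le_arb hM hA hR hA' hR' hG _ fun v hv =>
    ⟨φ v, h.mem v hv, fun _ ha => h.umap_eq hA hR hv ha, h.img v hv⟩

end Coh

theorem keyC_refl (A : Finset ι → Set C) (F : Finset (Finset ι)) (Q : Set C) :
    Blk.KeyC M A A F Q :=
  fun _ _ _ _ _ _ => ⟨1, M.G.one_mem, fun _ _ => rfl, fun _ _ _ _ he => he⟩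

theorem keyC_trans {Q' : Set C} (h1 : Blk.KeyC M A B F Q) (h2 : Blk.KeyC M B P F Q')
    (hQ : Q ⊆ Q') : Blk.KeyC M A P F Q := by
  intro E hE hEc D hD hDc
  obtain ⟨g, hg, h3, h4⟩ := h2 E hE hEc D (hD.trans hQ) hDc
  obtain ⟨k, hk, h5, h6⟩ := h1 (g '' E) (by
    rintro _ ⟨e, he, rfl⟩
    obtain ⟨v, hv, hev⟩ := hE he
    exact ⟨v, hv, h4 v hv e he hev⟩) (small_image g hEc) D hD hDc
  refine ⟨k * g, M.G.mul_mem hk hg, fun d hd => ?_, fun v hv e he hev => ?_⟩
  · rw [Equiv.Perm.mul_apply, h3 d hd, h5 d hd]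
  · exact h6 v hv _ (mem_image_of_mem g he) (h4 v hv e he hev)

theorem scaf_snoc {m : ℕ} {P : ℕ → Finset ι → Set C} {r : ℕ → Finset ι} {Q : ℕ → Set C}
    {N : Set C} (h : Scaf M A F N m P r Q) {P' : Finset ι → Set C} {w : Finset ι} {Q' : Set C}
    (h1 : Blk M (P m) P' F w Q') (hw : w.Nonempty) (hN : N ⊆ Q') :
    Scaf M A F N (m + 1) (fun i => if i ≤ m then P i else P') (fun i => if i < m then r i else w)
      (fun i => if i < m then Q i else Q') := by
  refine ⟨fun v hv => ?_, fun i hi => ?_, fun i hi => ?_, fun i hi => ?_⟩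
  · simp only [Nat.zero_le, if_true]
    exact h.zero v hv
  · rcases Nat.lt_or_ge i m with h2 | h2
    · have h3 : i ≤ m := h2.le
      have h4 : i + 1 ≤ m := h2
      simp only [if_pos h2, if_pos h3, if_pos h4]
      exact h.blk i h2
    · have h3 : i = m := by omega
      subst h3
      have h4 : ¬ i + 1 ≤ i := by omega
      simp only [le_refl, if_true, if_neg h4, lt_irrefl, if_false]
      exact h1
  · by_cases h2 : i < m
    · simp only [if_pos h2]
      exact h.ne i h2
    · simp only [if_neg h2]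
      exact hw
  · by_cases h2 : i < m
    · simp only [if_pos h2]
      exact h.sub i h2
    · simp only [if_neg h2]
      exact hN

/-- **Scaffold.** The faces of an arbitrary independent family are enlarged one after the other,
freely from `N`, to a family with coherent isomorphisms onto a standard family. -/
theorem exists_scaf (hM : M.Calc) (hls : ∀ X : Set C, #X ≤ M.χ → ∃ N ∈ M.S, X ⊆ N)
    (hF : FreeM M) (hMd : ∀ j, 1 ≤ j → ∀ v ∈ F, j < v.card → Md M ι j)
    {St : (Finset ι → β) → Finset ι → Set C} (hSt : StdGen M F St)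
    (hA : IFam M A F) (hR : IRef M A F) {N : Set C} (hN : #N ≤ M.χ) :
    ∃ (m : ℕ) (P : ℕ → Finset ι → Set C) (r : ℕ → Finset ι) (Q : ℕ → Set C)
      (b : Finset ι → β) (φ : Finset ι → Equiv.Perm C), Scaf M A F N m P r Q ∧
        IFam M (P m) F ∧ IRef M (P m) F ∧ Blk.KeyC M A (P m) F N ∧
          Coh M F (P m) (St b) φ := by
  have hGDI : ∀ v ∈ F, GDI M ι v.card := fun v hv => gdi_of_md hM hls v.card
    fun j hj hjv => hMd j hj v hv hjv
  have key : ∀ F', Down F' → F' ⊆ F → ∃ (m : ℕ) (P : ℕ → Finset ι → Set C)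
      (r : ℕ → Finset ι) (Q : ℕ → Set C) (b : Finset ι → β) (φ : Finset ι → Equiv.Perm C),
        Scaf M A F N m P r Q ∧ IFam M (P m) F ∧ IRef M (P m) F ∧ Blk.KeyC M A (P m) F N ∧
          Coh M F' (P m) (St b) φ := by
    refine down_induction (p := fun F' => F' ⊆ F → ∃ (m : ℕ) (P : ℕ → Finset ι → Set C)
      (r : ℕ → Finset ι) (Q : ℕ → Set C) (b : Finset ι → β) (φ : Finset ι → Equiv.Perm C),
        Scaf M A F N m P r Q ∧ IFam M (P m) F ∧ IRef M (P m) F ∧ Blk.KeyC M A (P m) F N ∧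
          Coh M F' (P m) (St b) φ) ?_ ?_
    · intro _
      obtain ⟨b, g, hg, h1⟩ := hSt.conj (A ∅) (hA.mem ∅ hA.down.1)
      refine ⟨0, fun _ => A, fun _ => ∅, fun _ => ∅, b, fun _ => g,
        ⟨fun v _ => rfl, fun i hi => absurd hi (Nat.not_lt_zero i),
          fun i hi => absurd hi (Nat.not_lt_zero i), fun i hi => absurd hi (Nat.not_lt_zero i)⟩,
        hA, hR, keyC_refl A F N, fun v _ => hg, fun v hv => ?_, fun v _ w _ a _ => rfl⟩
      rw [Finset.mem_singleton.1 hv]
      exact h1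
    intro F' w hF' hwF' hw ih hsub'
    have hsub : F' ⊆ F := (Finset.subset_insert w F').trans hsub'
    have hwF : w ∈ F := hsub' (Finset.mem_insert_self w F')
    have hw0 : w.Nonempty := by
      rw [Finset.nonempty_iff_ne_empty]
      rintro rfl
      exact hwF' hF'.1
    obtain ⟨m, P₀, r, Q, b, φ, hsc, hB, hRB, hKB, hcoh⟩ := ih hsub
    obtain ⟨B, hBdef⟩ : ∃ B, B = P₀ m := ⟨_, rfl⟩
    rw [← hBdef] at hB hRB hKB hcoh
    -- the map on the boundary
    have hss : w.ssubsets ⊆ F' := fun v hv => hw v (Finset.mem_ssubsets.1 hv)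
    have hB' : IFam M B w.ssubsets := hB.sub (down_ssubsets hw0) (hss.trans hsub)
    have hRB' : IRef M B w.ssubsets := hRB.mono (hss.trans hsub)
    have hc' := hcoh.sub hss
    have hLE : M.LE (umap w.ssubsets B φ) (ibd B w) := by
      have h1 := hc'.le hM hB' hRB' ⟨down_ssubsets hw0,
        fun v hv => hSt.mem b v (hsub (hss hv)), fun v hv => hSt.mono b v (hsub (hss hv))⟩
        (hSt.ref b w hwF hw0) fun v hv _ => hGDI v (hsub (hss hv))
      rwa [iun_ssubsets] at h1
    have himg : umap w.ssubsets B φ '' ibd B w = ibd (St b) w := by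
      have h1 := hc'.umap_img hB' hRB'
      rwa [iun_ssubsets, iun_ssubsets] at h1
    obtain ⟨N₁, hN₁, -⟩ := exists_hull hB hRB hwF hw0 fun _ => hGDI w hwF
    obtain ⟨N', hN', hN'2⟩ := hls (ibd (St b) w) (by
      rw [← iun_ssubsets]
      exact card_iun fun v hv => (M.S_card (hSt.mem b v (hsub (hss hv)))).le)
    obtain ⟨h, hh, h1, -⟩ := hN₁.exists_embed hLE hN' fun x hx => hN'2 (by
      rw [← himg]
      exact mem_image_of_mem _ hx)
    -- the new bound
    have hsubw : ibd B w ⊆ B w := by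
      rintro x ⟨r, hr, hx⟩
      exact hB.mono w hwF r hr.1 hx
    obtain ⟨c, g, hg, h2, h3⟩ := hSt.gap b w hwF hw0 (h '' B w)
      (M.S_inv hh (hB.mem w hwF)) (h '' ibd B w) (image_mono hsubw) (by
        rintro _ ⟨x, hx, rfl⟩
        rw [h1 x hx, ← himg]
        exact mem_image_of_mem _ hx)
    -- the free copy of the standard model
    have hgh : g * h ∈ M.G := M.G.mul_mem hg hh
    let R : Set C := ((g * h)⁻¹ : Equiv.Perm C) '' St (update b w c) w
    have hRS : R ∈ M.S := M.S_inv (M.G.inv_mem hgh) (hSt.mem _ w hwF)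
    have hBR : B w ⊆ R := by
      intro x hx
      refine ⟨(g * h) x, h3 ⟨h x, mem_image_of_mem h hx, rfl⟩, inv_ap _ x⟩
    have hQ' : #(N ∪ iun B F : Set C) ≤ M.χ := (mk_union_le _ _).trans
      (add_le_of_le M.hχ hN (card_iun fun v hv => (M.S_card (hB.mem v hv)).le))
    obtain ⟨k, hk, h4, h5⟩ := hF (B w) (hB.mem w hwF) R hRS hBR (N ∪ iun B F) hQ'
    obtain ⟨P, hP1, hP2⟩ := exists_blk (M := M) hB hRB hwF hw0
      (Q := N ∪ iun B F) subset_union_right (B := k '' R) (M.S_inv hk hRS)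
      (fun x hx => ⟨x, hBR hx, h4 x hx⟩) h5 fun v hv hwv => by
        refine hMd _ ?_ v hv ?_
        · rw [Nat.one_le_iff_ne_zero, Ne, Finset.card_eq_zero, Finset.sdiff_eq_empty_iff_subset]
          exact hwv.2
        · rw [Finset.card_sdiff_of_subset hwv.1]
          have h6 := Finset.card_pos.2 hw0
          have h7 := Finset.card_lt_card hwv
          omega
    have hPv : ∀ v ∈ F', P v = B v := fun v hv => hP2.same v (hsub hv) fun h6 =>
      hwF' (hF'.2 v hv w h6)
    have hne : ∀ v ∈ F', ∀ u ⊆ v, u ≠ w := by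
      rintro v hv u hu rfl
      exact hwF' (hF'.2 v hv u hu)
    have hPw : ∀ u, u ⊂ w → P u = B u := fun u hu => hPv u (hw u hu)
    have hsc' := scaf_snoc hsc (hBdef ▸ hP2) hw0 subset_union_left
    refine ⟨m + 1, _, _, _, update b w c, update φ w ((g * h) * k⁻¹), hsc', ?_⟩
    have hlast : ¬ m + 1 ≤ m := by omega
    simp only [if_neg hlast]
    refine ⟨hP2.famP, hP2.refP hM,
      keyC_trans hKB (hP2.refC hM) subset_union_left, fun v hv => ?_, fun v hv => ?_,
      fun v hv u hu a ha => ?_⟩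
    · rcases Finset.mem_insert.1 hv with rfl | hv
      · rw [update_self]
        exact M.G.mul_mem hgh (M.G.inv_mem hk)
      · rw [update_of_ne (hne v hv v (Finset.Subset.refl v))]
        exact hcoh.mem v hv
    · rcases Finset.mem_insert.1 hv with rfl | hv
      · rw [update_self, hP1]
        ext x
        constructor
        · rintro ⟨_, ⟨_, ⟨y, hy, rfl⟩, rfl⟩, rfl⟩
          rw [Equiv.Perm.mul_apply, inv_ap, ap_inv]
          exact hy
        · intro hx
          refine ⟨k ((g * h)⁻¹ x), mem_image_of_mem k (mem_image_of_mem _ hx), ?_⟩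
          rw [Equiv.Perm.mul_apply, inv_ap, ap_inv]
      · rw [update_of_ne (hne v hv v (Finset.Subset.refl v)), hPv v hv, hcoh.img v hv]
        exact hSt.loc _ _ v (hsub hv) fun u hu _ => (update_of_ne (hne v hv u hu) _ _).symm
    · rcases Finset.mem_insert.1 hv with rfl | hv
      · rcases eq_or_ne u v with rfl | huv
        · rfl
        have hu' : u ⊂ v := lt_of_le_of_ne hu huv
        rw [hPw u hu'] at ha
        have hav : a ∈ B v := hB.mono v hwF u hu ha
        have hai : a ∈ ibd B v := ⟨u, hu', ha⟩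
        rw [update_self, update_of_ne huv, Equiv.Perm.mul_apply, fix_inv (h4 a hav),
          Equiv.Perm.mul_apply, h2 _ (mem_image_of_mem h hai), h1 a hai]
        exact (hc'.umap_eq hB' hRB' (Finset.mem_ssubsets.2 hu') ha).symm
      · rw [update_of_ne (hne v hv v (Finset.Subset.refl v)), update_of_ne (hne v hv u hu)]
        rw [hPv u (hF'.2 v hv u hu)] at ha
        exact hcoh.coh v hv u hu a ha
  exact key F hA.down Finset.Subset.rfl

end Vale.Agent.P307.R2.H83
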