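import Vale.Agent.P307.R2.H83.TinyB
import Vale.Agent.P307.R2.H914.BrT

/-!
Tiny isolating sets over the boundaries.
-/

set_option linter.unusedSectionVars false

universe u v w

open FirstOrder Cardinal Set

namespace Vale.Agent.P307.R2.H83

open Vale.Agent.P307 Vale.Agent.P307.H304 Vale.Agent.P307.R2.H287 Vale.Agent.P307.R2.H1
  Vale.Agent.P307.R2.H806 Vale.Agent.P307.R2.H971 Vale.Agent.P307.R2.H804
  Language.Structure Language.Substructure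
open Vale.Agent.P307.R2.H541 Vale.Agent.P307.R2.H541.PG Vale.Agent.P307.R2.H533
  Vale.Agent.P307.R2.H650 Vale.Agent.P307.R2.H427
open Vale.Agent.P307.R2.H68 (Clo exists_clo)
open Vale.Agent.P307.R2.H514 (tH)

open scoped Classical

variable {ι : Type v} {L : Language.{u, u}} {K : AEC L} {ℓ θ τ σ₀ : Cardinal.{u}}
  {κf α : Cardinal.{u} → Cardinal.{u}} {C : Type u} [L.Structure C]

section

variable (h₀ : BasePt K ℓ κf α θ) (hK : K.IsLS ℓ)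
  (hunb : ∀ ν, ν < κf ν ∧ K.CategoricalIn (κf ν)) (hst : Stab K ℓ α (H287.thr κf))
  (hCm : K.mem C) (hs : Sat K θ C) (hCc : #C = Order.succ θ)

include h₀ hK hunb hst hCm hs hCc

/-- **Tiny isolating sets.** -/
theorem pg_tinyAt (hτ : BasePt K ℓ κf α τ) (hτθ : τ < θ)
    (hFr : FreeM (pg h₀ hK hunb hst hCm hs hCc)) {s : Finset ι}
    (hMd : ∀ j, 1 ≤ j → j + 1 < s.card → Md (pg h₀ hK hunb hst hCm hs hCc) ι j)
    (hTX : ∀ w ∈ s.ssubsets, w.Nonempty → ∀ A : Finset ι → Set C,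
      IFam (pg h₀ hK hunb hst hCm hs hCc) A w.ssubsets →
      IRef (pg h₀ hK hunb hst hCm hs hCc) A w.ssubsets →
      ∀ σ < θ, ∀ ρ < θ, (pg h₀ hK hunb hst hCm hs hCc).TmL σ (tH (max ℓ σ)) ρ (ibd A w))
    (hσ₀ : σ₀ < θ) (hFU : ∀ w ∈ s.ssubsets, w.Nonempty → ∀ A : Finset ι → Set C,
      IFam (pg h₀ hK hunb hst hCm hs hCc) A w.ssubsets →
      H83.IRefL (pg h₀ hK hunb hst hCm hs hCc) σ₀ A w.ssubsets →
      IRef (pg h₀ hK hunb hst hCm hs hCc) A w.ssubsets)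
    {A : Finset ι → Set C}
    (hA : IFam (pg h₀ hK hunb hst hCm hs hCc) A s.ssubsets)
    (hR : IRef (pg h₀ hK hunb hst hCm hs hCc) A s.ssubsets)
    (hTs : ∀ σ < θ, ∀ ρ < θ, (pg h₀ hK hunb hst hCm hs hCc).TmL σ (tH (max ℓ σ)) ρ (ibd A s))
    (hτ₂ : ∀ σ < θ, ∃ τ₂, σ < τ₂ ∧ τ₂ < θ ∧ ∃ φ : Finset C → Set C, (∀ s, #(φ s) ≤ τ₂) ∧
      ∀ H, Clo φ H → #H ≤ τ₂ → ∀ σ < τ₂, ∀ ρ < τ₂,
        (pg h₀ hK hunb hst hCm hs hCc).TmL σ (tH (max ℓ σ)) ρ (ibd A s ∩ H)) :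
    H27.TinyAt (pg h₀ hK hunb hst hCm hs hCc) τ (ibd A s) :=
  pg_tinyAt_of_brute h₀ hK hunb hst hCm hs hCc hτ hτθ hFr hMd hTX hσ₀ hFU hA hR hTs hτ₂
    fun _ h1 h2 => by
      obtain ⟨Λ, h3, h4⟩ := H914.exists_brT h₀ hK hunb hst hCm hs hCc hτ hτθ.le h1 h2
      exact ⟨Λ, h3, fun A F e he => h4 A F e he⟩

end

end Vale.Agent.P307.R2.H83
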