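import Vale.Agent.P307.R2.H672.ShrT
import Vale.Agent.P307.R2.H27.TrPt
import Vale.Agent.P307.R2.H732.Tb
import Vale.Agent.P307.R2.H672.LimX
import Vale.Agent.P307.R2.H427.LevTr

/-!
Tiny isolating sets.
-/

set_option linter.unusedSectionVars false

universe u v w

open FirstOrder Cardinal Set

namespace Vale.Agent.P307.R2.H83

open Vale.Agent.P307 Vale.Agent.P307.H304 Vale.Agent.P307.R2.H287 Vale.Agent.P307.R2.H1
  Vale.Agent.P307.R2.H806 Vale.Agent.P307.R2.H971 Vale.Agent.P307.R2.H804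
  Language.Structure Language.Substructure
open Vale.Agent.P307.R2.H541 Vale.Agent.P307.R2.H541.PG Vale.Agent.P307.R2.H533
  Vale.Agent.P307.R2.H650 Vale.Agent.P307.R2.H427
open Vale.Agent.P307.R2.H68 (Clo exists_clo)
open Vale.Agent.P307.R2.H514 (tH)

open scoped Classical

variable {ι : Type v} {L : Language.{u, u}} {K : AEC L} {ℓ θ τ σ₀ : Cardinal.{u}}
  {κf α : Cardinal.{u} → Cardinal.{u}} {C : Type u} [L.Structure C]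

section

variable (h₀ : BasePt K ℓ κf α θ) (hK : K.IsLS ℓ)
  (hunb : ∀ ν, ν < κf ν ∧ K.CategoricalIn (κf ν)) (hst : Stab K ℓ α (H287.thr κf))
  (hCm : K.mem C) (hs : Sat K θ C) (hCc : #C = Order.succ θ)

include h₀ hK hunb hst hCm hs hCc

/-- **Tiny isolating sets**: a tuple of size less than `τ` whose type over the boundary is isolated
by a small subset of the boundary is isolated by a subset of size less than `τ`. -/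
theorem pg_tinyAt_of_brute (hτ : BasePt K ℓ κf α τ) (hτθ : τ < θ)
    (hFr : FreeM (pg h₀ hK hunb hst hCm hs hCc)) {s : Finset ι}
    (hMd : ∀ j, 1 ≤ j → j + 1 < s.card → Md (pg h₀ hK hunb hst hCm hs hCc) ι j)
    (hTX : ∀ w ∈ s.ssubsets, w.Nonempty → ∀ A : Finset ι → Set C,
      IFam (pg h₀ hK hunb hst hCm hs hCc) A w.ssubsets →
      IRef (pg h₀ hK hunb hst hCm hs hCc) A w.ssubsets →
      ∀ σ < θ, ∀ ρ < θ, (pg h₀ hK hunb hst hCm hs hCc).TmL σ (tH (max ℓ σ)) ρ (ibd A w))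
    (hσ₀ : σ₀ < θ) (hFU : ∀ w ∈ s.ssubsets, w.Nonempty → ∀ A : Finset ι → Set C,
      IFam (pg h₀ hK hunb hst hCm hs hCc) A w.ssubsets →
      H83.IRefL (pg h₀ hK hunb hst hCm hs hCc) σ₀ A w.ssubsets →
      IRef (pg h₀ hK hunb hst hCm hs hCc) A w.ssubsets)
    {A : Finset ι → Set C}
    (hA : IFam (pg h₀ hK hunb hst hCm hs hCc) A s.ssubsets)
    (hR : IRef (pg h₀ hK hunb hst hCm hs hCc) A s.ssubsets)
    (hTs : ∀ σ < θ, ∀ ρ < θ, (pg h₀ hK hunb hst hCm hs hCc).TmL σ (tH (max ℓ σ)) ρ (ibd A s))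
    (hτ₂ : ∀ σ < θ, ∃ τ₂, σ < τ₂ ∧ τ₂ < θ ∧ ∃ φ : Finset C → Set C, (∀ s, #(φ s) ≤ τ₂) ∧
      ∀ H, Clo φ H → #H ≤ τ₂ → ∀ σ < τ₂, ∀ ρ < τ₂,
        (pg h₀ hK hunb hst hCm hs hCc).TmL σ (tH (max ℓ σ)) ρ (ibd A s ∩ H))
    (hbr : ∀ ρ, ℓ ≤ ρ → ρ < τ → ∃ Λ < τ, ∀ (A : Finset ι → Set C) (F : Finset (Finset ι))
      (e : Set C), #e ≤ ρ → ∃ T : L.Substructure C, K.le T ∧ e ⊆ T ∧ H287.thr κf ρ ≤ #T ∧
        #T ≤ Λ ∧ ∀ q ⊆ (T : Set C), #q ≤ ρ → ∀ y : Set C, #y ≤ ρ → ∃ t ∈ autG L C,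
          (∀ x ∈ q, t x = x) ∧ ∀ v ∈ F, ∀ a ∈ y, a ∈ A v → t a ∈ A v ∩ T) :
    H27.TinyAt (pg h₀ hK hunb hst hCm hs hCc) τ (ibd A s) := by
  rintro e hec ⟨B, hBX, hBc, hI⟩
  have hθ : ℵ₀ ≤ θ := aleph0_le_pt h₀ hK
  obtain ⟨μ₀, μ₁, ν, μ, ρ, heμ, hμ₀, htμ₀, hμμ, htμ₁, hμν, hα, hl, hμ₀τ, hμ₁τ, hντ, hμτ, hρτ⟩ :=
    exists_lev hK hunb hst hτ hec
  have hlθ : Lvl ℓ κf α ν μ ρ θ := lvl_mono hl hτθ.le
  have hμ := hl.hμ hK
  have hμρ : μ ≤ ρ := hl.μρ hunb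
  have hνρ : ν ≤ ρ := hl.νμ.trans hμρ
  have hμ₁ρ : μ₁ ≤ ρ := hμν.trans hνρ
  have hμ₀ρ : μ₀ ≤ ρ := hμμ.trans hμ₁ρ
  have hμ₀μ : μ₀ ≤ μ := (hμμ.trans hμν).trans hl.νμ
  have hμ₀θ : μ₀ < θ := hμ₀τ.trans hτθ
  have hμ₁θ : μ₁ < θ := hμ₁τ.trans hτθ
  have hℓρ : ℓ ≤ ρ := hl.hℓμ.trans hμρ
  have hiun : iun A s.ssubsets = ibd A s := iun_ssubsets
  -- the small model
  obtain ⟨Λ, hΛ, hbr⟩ := hbr ρ hℓρ hρτ
  obtain ⟨T, hT, heT, hthr, hTΛ, hTc⟩ := hbr A s.ssubsets e (heμ.trans hμ₀ρ)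
  have hTr : Refl L ρ (T : Set C) := refl_of_le hK hunb hℓρ hT hthr
  -- the large model
  have hXc : #(ibd A s) ≤ θ := by
    rw [← hiun]
    exact card_iun (M := pg h₀ hK hunb hst hCm hs hCc) fun v hv =>
      ((pg h₀ hK hunb hst hCm hs hCc).S_card (hA.mem v hv)).le
  obtain ⟨N, hN, hNc, hXN⟩ := pg_ls h₀ hK hCm hCc (X := ibd A s ∪ (T : Set C))
    ((mk_union_le _ _).trans (add_le_of_le hθ hXc (hTΛ.trans (hΛ.le.trans hτθ.le))))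
  -- the closed trace
  obtain ⟨τ₂, h1, h2, φ, h3, h4⟩ := hτ₂ (max #B μ₁) (max_lt hBc hμ₁θ)
  have hBτ₂ : #B < τ₂ := (le_max_left _ _).trans_lt h1
  have hμ₁τ₂ : μ₁ < τ₂ := (le_max_right _ _).trans_lt h1
  have hτ₂0 : ℵ₀ ≤ τ₂ := (hμ₀.trans hμμ).trans hμ₁τ₂.le
  obtain ⟨H₂, h5, h6, h7⟩ := exists_clo hτ₂0 h3 B hBτ₂.le
  have h8 := h4 H₂ h5 h7
  have hB'c : #(ibd A s ∩ H₂ : Set C) < θ :=
    ((mk_le_mk_of_subset inter_subset_right).trans h7).trans_lt h2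
  have hBB' : B ⊆ ibd A s ∩ H₂ := subset_inter hBX h6
  refine ⟨ibd A s ∩ T, inter_subset_left,
    ((mk_le_mk_of_subset inter_subset_right).trans hTΛ).trans_lt hΛ, ?_⟩
  refine H672.pg_isol_shrinkT h₀ hK hunb hst hCm hs hCc hlθ hα hN hNc hTr
    (subset_union_right.trans hXN) (B := B) (B' := ibd A s ∩ H₂) (μ₀ := μ₀) (μ₁ := μ₁)
    inter_subset_right heT ((inter_subset_left.trans subset_union_left).trans hXN)
    (hμ₀.trans hμμ) heμ hμμ hμν ?_ ?_ ?_ ?_ hI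
  · -- the limits
    intro x₀ hx₀ hx₀c
    choose v hv hxv using fun i : x₀ => hx₀ i.2
    obtain ⟨b, x', g1, g2, g3, g4⟩ := H672.pg_limX h₀ hK hunb hst hCm hs hCc hFr hMd hTX hσ₀ hFU
      hA hR hl.hℓμ (hlθ.opB.trans_lt hlθ.lt) hlθ.thr'' (D := ibd A s ∩ T) (B' := ibd A s ∩ H₂)
      inter_subset_left inter_subset_left hB'c (hx₀c.trans hμ₀μ) v hv (fun i => (i : C)) (by
        intro q hq hqc
        obtain ⟨t, ht, h9, h10⟩ := hTc q (hq.trans inter_subset_right) (hqc.trans hl.limB) x₀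
          (hx₀c.trans hμ₀ρ)
        refine ⟨t, ht, h9, fun i => ?_⟩
        obtain ⟨h11, h12⟩ := h10 (v i) (Finset.mem_ssubsets.2 (hv i)) i i.2 (hxv i)
        exact ⟨h11, ⟨⟨v i, hv i, h11⟩, h12⟩⟩)
    have hne : Nonempty (SuccTy (opB κf μ)) := by
      obtain ⟨x, -⟩ := dir_succTy (hμ.trans (le_opB hunb μ)) ∅ (by simp)
      exact ⟨x⟩
    exact ⟨SuccTy (opB κf μ), inferInstance, hne, b, x', (mk_succTy _).trans_le hl.opB,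
      fun ξ i => (g1 ξ i).2, fun i => ⟨v i, hv i, g2 i⟩, g3, g4⟩
  · -- reflection
    intro y hy hyc q hq hqc
    obtain ⟨t, ht, h9, h10⟩ := hTc q hq hqc y (hyc.trans hμ₁ρ)
    refine ⟨t, ht, h9, fun x hx => ?_⟩
    obtain ⟨v, hv, hxv⟩ := (hy hx).1
    obtain ⟨h11, h12⟩ := h10 v (Finset.mem_ssubsets.2 hv) x hx hxv
    exact ⟨⟨v, hv, h11⟩, h12⟩
  · -- types over the closed trace
    intro E hE
    exact H732.htb_of_tmL h₀ hK hunb hst hCm hs hCc (τ := τ₂) (fun ρ' hρ' => h8 μ₀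
      (hμμ.trans_lt hμ₁τ₂) ρ' hρ') htμ₁ hE hBB' hBτ₂
  · -- types over the boundary
    intro g hg hloc Z hZ hZc
    exact hTs #e (hec.trans hτθ) #Z hZc e le_rfl g hg
      (fun A' hA' hAc => hloc A' hA' (hAc.trans htμ₀)) Z hZ le_rfl

end

end Vale.Agent.P307.R2.H83
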